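import Vale.Agent.P144U.Defs
import Vale.Agent.P144E.Ge3.Dig

/-!
Constants independent of the angles: the large scales of the dug sets.
-/

namespace Vale.Agent.P144Z

open Finset GeoA

namespace UniU

variable {M : ℕ} [NeZero M] {I : Finset (Tor M)} {α κ : ℝ} {y : Tor M} {R t : ℕ}
  {y₀ c : ℤ × ℤ} {un : Bool} {S₁ S₂ : Set (ℤ × ℤ)} {ν₁ ν₂ : ℂ}

theorem row_le (y : Tor M) (A : Finset ℤ) (u : ZMod M) :
    ((univ.filter fun x : Tor M => (lft (x - y)).1 ∈ A).filter fun x => x.2 = u).card ≤ A.card :=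
  card_le_card_of_injOn (fun x => (lft (x - y)).1)
    (fun _ hx => mem_coe.2 (mem_filter.1 (mem_filter.1 hx).1).2)
    fun _ hx _ hx' e => Prod.ext (sub_left_injective (ZMod.valMinAbs_inj.1 e))
      ((mem_filter.1 hx).2.trans (mem_filter.1 hx').2.symm)

theorem col_le (y : Tor M) (A : Finset ℤ) (u : ZMod M) :
    ((univ.filter fun x : Tor M => (lft (x - y)).2 ∈ A).filter fun x => x.1 = u).card ≤ A.card :=
  card_le_card_of_injOn (fun x => (lft (x - y)).2)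
    (fun _ hx => mem_coe.2 (mem_filter.1 (mem_filter.1 hx).1).2)
    fun _ hx _ hx' e => Prod.ext ((mem_filter.1 hx).2.trans (mem_filter.1 hx').2.symm)
      (sub_left_injective (ZMod.valMinAbs_inj.1 e))

theorem two_cut {v w : ℤ × ℤ} (h1 : v ∈ Two un S₁ S₂) (h2 : w ∉ Two un S₁ S₂) :
    (v ∈ S₁ ∧ w ∉ S₁) ∨ (v ∈ S₂ ∧ w ∉ S₂) := by
  cases un <;> simp only [Two, Set.mem_ofPred_eq, if_true, Bool.false_eq_true, if_false] at h1 h2 <;>
    tauto

/-- The two bands of width four. -/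
noncomputable def band (a : ℤ) (t : ℕ) : Finset ℤ :=
  Icc (a + t - 1) (a + t + 2) ∪ Icc (a - t - 2) (a - t + 1)

theorem mem_band {a b x w w' : ℤ} (h1 : t < (b + w - a).natAbs) (h2 : (b + w' - a).natAbs ≤ t)
    (h3 : (w - x).natAbs ≤ 2) (h4 : (w' - x).natAbs ≤ 2) : x ∈ band (a - b) t := by
  simp only [band, mem_union, mem_Icc]
  omega

theorem card_band (a : ℤ) (t : ℕ) : (band a t).card ≤ 8 := by
  have := card_union_le (Icc (a + t - 1) (a + t + 2)) (Icc (a - t - 2) (a - t + 1))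
  rw [Int.card_Icc, Int.card_Icc] at this
  unfold band
  omega

open B5a2 in
/-- The trace property of a dug tip, with a universal constant. -/
theorem tr_dug (hS : TipS S₁ S₂ ν₁ ν₂ α (1 / 8))
    (hI : ∀ v, zd v 0 ≤ R → (y + prj M v ∈ I ↔ y₀ + v ∈ DugU un S₁ S₂ c t)) {ρ : ℕ}
    (hρ : ρ + 2 ≤ R) : TrB I y ρ 28 := by
  classical
  obtain ⟨H₁, V₁, a1, b1, c1⟩ := tr_one hS.n₁ (Ge3.epi_shift hS.e₁ y₀) y
  obtain ⟨H₂, V₂, a2, b2, c2⟩ := tr_one hS.n₂ (Ge3.epi_shift hS.e₂ y₀) y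
  have b3 := fun u => (row_le y (band (c.1 - y₀.1) t) u).trans (card_band _ _)
  have c3 := fun u => (col_le y (band (c.2 - y₀.2) t) u).trans (card_band _ _)
  set H₃ := univ.filter fun x : Tor M => (lft (x - y)).1 ∈ band (c.1 - y₀.1) t with hH
  set V₃ := univ.filter fun x : Tor M => (lft (x - y)).2 ∈ band (c.2 - y₀.2) t with hV
  refine ⟨H₁ ∪ H₂ ∪ H₃, V₁ ∪ V₂ ∪ V₃, fun x hx hn => ?_, fun u => ?_, fun u => ?_⟩
  · obtain ⟨⟨f, hf, hfx⟩, f', hf', hfx'⟩ := hn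
    obtain ⟨w, rfl, w1, w2⟩ := exists_rep y x f
    obtain ⟨w', rfl, w1', w2'⟩ := exists_rep y x f'
    have h1 := (hI w (by omega)).1 hf
    have h2 := mt (hI w' (by omega)).2 hf'
    simp only [mem_union]
    rcases not_and_or.1 h2 with h2 | h2
    · rcases two_cut h1.1 h2 with h3 | h3
      · exact (a1 x ⟨⟨w, h3.1, w1 ▸ hfx⟩, w', h3.2, w1' ▸ hfx'⟩).imp
          (fun k => Or.inl (Or.inl k)) fun k => Or.inl (Or.inl k)
      · exact (a2 x ⟨⟨w, h3.1, w1 ▸ hfx⟩, w', h3.2, w1' ▸ hfx'⟩).imp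
          (fun k => Or.inl (Or.inr k)) fun k => Or.inl (Or.inr k)
    · have h3 := h1.2
      rw [← w1] at hfx
      rw [← w1'] at hfx'
      have h4 := max_le_iff.1 (not_lt.1 h2)
      have h5 := max_le_iff.1 hfx
      have h6 := max_le_iff.1 hfx'
      exact (lt_max_iff.1 h3).imp
        (fun k => Or.inr (mem_filter.2 ⟨mem_univ _, mem_band k h4.1 h5.1 h6.1⟩))
        fun k => Or.inr (mem_filter.2 ⟨mem_univ _, mem_band k h4.2 h5.2 h6.2⟩)
  · rw [filter_union, filter_union]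
    have := card_union_le (H₁.filter (fun x => x.2 = u) ∪ H₂.filter fun x => x.2 = u)
      (H₃.filter fun x => x.2 = u)
    have := card_union_le (H₁.filter fun x => x.2 = u) (H₂.filter fun x => x.2 = u)
    have := b1 u
    have := b2 u
    have := b3 u
    omega
  · rw [filter_union, filter_union]
    have := card_union_le (V₁.filter (fun x => x.1 = u) ∪ V₂.filter fun x => x.1 = u)
      (V₃.filter fun x => x.1 = u)
    have := card_union_le (V₁.filter fun x => x.1 = u) (V₂.filter fun x => x.1 = u)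
    have := c1 u
    have := c2 u
    have := c3 u
    omega

omit [NeZero M] in
/-- Far from the tip there is one wall and the square is not seen. -/
theorem far_shape (hS : TipS S₁ S₂ ν₁ ν₂ α κ) {ρ : ℕ} {S : Set (ℤ × ℤ)} {ν : ℂ}
    (h1 : ν = ν₁ ∨ ν = ν₂) (h2 : Epi S ν κ)
    (h3 : ∀ v, zd v 0 ≤ ρ → (y₀ + v ∈ Two un S₁ S₂ ↔ v ∈ S))
    (hI : ∀ v, zd v 0 ≤ R → (y + prj M v ∈ I ↔ y₀ + v ∈ DugU un S₁ S₂ c t))
    (hc : 2 * zd c 0 ≤ t) (hρ : ρ ≤ R) (hy : ρ + 2 * t < zd y₀ 0) : ShapeAt I 1 κ ρ y := by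
  have b4 : ‖ν‖ = 1 := by
    rcases h1 with rfl | rfl
    · exact hS.n₁
    · exact hS.n₂
  have b5 : 1 ≤ ‖ν + ν‖ := by
    rw [← two_mul, norm_mul, b4]
    simp
  refine ⟨S, S, ν, ν, b4, b4, b5, h2, h2, fun v hv => ?_⟩
  rw [hI v (by omega), and_self, ← h3 v hv]
  refine and_iff_left ?_
  have a1 := zd_tri y₀ (y₀ + v) 0
  have a2 := zd_tri (y₀ + v) c 0
  have a3 : zd y₀ (y₀ + v) = zd v 0 := by simp [zd]
  omega

/-- The outer faces escape. -/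
theorem esc_of {N r s : ℕ} (h : Rgh I N r) (h1 : N * ((N + 1) * (s + 1)) ≤ r) (h2 : 4 * s < M) :
    Esc I s := by
  intro b hb
  obtain ⟨x, hx, hx'⟩ := h.cork b hb s
    (le_trans (Nat.mul_le_mul_left _ (Nat.le_mul_of_pos_left _ (by omega))) h1)
  obtain ⟨g, g1, g2⟩ : ∃ g, tdist g x ≤ s ∧ s ≤ tdist g b := by
    have a1 := G.tdist_add_prj_le x ((s : ℤ), 0)
    have a2 := G.tdist_add_prj_le x (-(s : ℤ), 0)
    have a3 : tdist (x + prj M ((s : ℤ), 0)) (x + prj M (-(s : ℤ), 0)) = 2 * s := by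
      rw [G.tdist_def, add_sub_add_left_eq_sub, ← G.prj_sub, lft_prj]
      · simp only [Prod.mk_sub_mk]
        omega
      · simp only [Prod.mk_sub_mk]
        rw [abs_of_nonneg (by omega)]
        omega
      · simp only [Prod.mk_sub_mk, sub_self, abs_zero]
        omega
    have a4 := tdist_triangle (x + prj M ((s : ℤ), 0)) b (x + prj M (-(s : ℤ), 0))
    rw [tdist_comm b] at a4
    simp only [Int.natAbs_neg, Int.natAbs_natCast, Int.natAbs_zero] at a1 a2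
    by_cases a5 : s ≤ tdist (x + prj M ((s : ℤ), 0)) b
    · exact ⟨_, by omega, a5⟩
    · exact ⟨x + prj M (-(s : ℤ), 0), by omega, by omega⟩
  have g3 := tdist_triangle g x b
  exact ⟨g, g2, (h.conn b (N * (s + 1) + s) (le_of_eq_of_le (by ring) h1)).out'
    (by rw [tdist_self]; omega) (by omega) hb (hx' g g1)⟩

open Classical in
/-- The number of inner faces in a chart. -/
theorem card_chart {D : Set (ℤ × ℤ)} (hI : ∀ v, zd v 0 ≤ R → (y + prj M v ∈ I ↔ y₀ + v ∈ D))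
    {n : ℕ} (hn : n ≤ R) : (I.filter fun x => tdist x y ≤ n).card ≤
      ((Icc (-(n : ℤ)) n ×ˢ Icc (-(n : ℤ)) n).filter fun v => y₀ + v ∈ D).card := by
  refine card_le_card_of_injOn (fun x => lft (x - y)) (fun x hx => ?_) fun x _ x' _ e => ?_
  · obtain ⟨h1, h2⟩ := mem_filter.1 (mem_coe.1 hx)
    rw [← zd_lft] at h2
    refine mem_coe.2 (mem_filter.2 ⟨?_, (hI _ (h2.trans hn)).1 (by rwa [G.add_prj_lft])⟩)
    simp only [zd, Prod.fst_zero, Prod.snd_zero, mem_product, mem_Icc] at h2 ⊢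
    omega
  · have := congrArg (fun v => y + prj M v) e
    simpa only [G.add_prj_lft] using this

end UniU

open UniU Ge3 in
/-- The large scales of the dug sets. -/
theorem uniW_of (hF : FarU) (hO : ConnOr) (hA : WinAnd) (hZ : RghZ) : UniW := by
  intro N₀
  obtain ⟨No, hO⟩ := hO
  obtain ⟨Na, hNa, hA⟩ := hA
  obtain ⟨C, -, hc⟩ := conn_of_shape
  obtain ⟨N, n1, n2, n3, n4, n5⟩ :
      ∃ N, 5 * N₀ ≤ N ∧ No ≤ N ∧ Na ≤ N ∧ 2 * C ≤ N ∧ 28 ≤ N :=
    ⟨5 * N₀ + No + Na + 2 * C + 28, by omega, by omega, by omega, by omega, by omega⟩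
  refine ⟨N, by omega, fun K hK => ?_⟩
  obtain ⟨Ka, hA⟩ := hA K hK
  refine ⟨N * (K + Ka), fun α hα K₁ => ?_⟩
  obtain ⟨Nf, κ₁, hκ₁, hF⟩ := hF α hα
  obtain ⟨K₂, hK₂⟩ : ∃ K₂, K₂ = 2 * Nf * N + 4 * K₁ * N₀ + N := ⟨_, rfl⟩
  obtain ⟨κ₂, hκ₂, t₂, hO⟩ := hO α hα K₂
  obtain ⟨κ₃, hκ₃, t₃, hA⟩ := hA α hα (K₂ * K)
  obtain ⟨t₄, κ₄, hκ₄, hZ⟩ := hZ α hα
  refine ⟨Nf + 2 * K₁ + 1, t₂ + t₃ + t₄ + 1, min (min (min κ₁ κ₂) (min κ₃ κ₄)) (1 / 16),
    by positivity, fun t ht => ?_⟩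
  obtain ⟨N₂, hZ⟩ := hZ t (by omega)
  obtain ⟨N₁, m1, m2, m3⟩ : ∃ N₁, N₂ + 1 ≤ N₁ ∧ C ≤ N₁ ∧ 28 ≤ N₁ :=
    ⟨N₂ + C + 28, by omega, by omega, by omega⟩
  refine ⟨N₁, N₁ * (N₁ + 1) + 2, fun κ hκ hκ' M _ I Tp Tc R r₀ r hch hR h5 hr₀ hQ hM => ?_⟩
  simp only [le_min_iff] at hκ'
  obtain ⟨⟨⟨k1, k2⟩, k3, k4⟩, k5⟩ := hκ'
  have k6 : κ ≤ 1 / 8 := by linarith
  obtain ⟨R', hR', e1, e2⟩ : ∃ R', N₁ * ((N₁ + 1) * (r + 1)) ≤ R' ∧ R' + 2 ≤ R ∧ r ≤ R' := by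
    refine ⟨_, le_rfl, le_trans (by nlinarith) hQ, ?_⟩
    have : 1 * (1 * (r + 1)) ≤ N₁ * ((N₁ + 1) * (r + 1)) :=
      Nat.mul_le_mul (by omega) (Nat.mul_le_mul_right _ (by omega))
    omega
  have hm : ∀ {a b : ℕ} (s : ℕ), a ≤ b → a * s ≤ b * s := fun s k => Nat.mul_le_mul_right _ k
  have hcs : ∀ {ρ s n : ℕ} {y : Tor M}, ShapeAt I 1 κ ρ y → ρ ≤ R → C * (s + 1) ≤ n → n ≤ ρ →
      ConnB I y s n := fun h a1 a2 a3 =>
    hc M I 1 κ _ _ h one_pos (by linarith) (by omega) _ _ (by exact_mod_cast (by omega)) a3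
  have htr : ∀ y ρ, ρ + 2 ≤ R → TrB I y ρ 28 := by
    intro y ρ hρ
    rcases hch y with h1 | ⟨p, -, y₀, c, un, S₁, S₂, ν₁, ν₂, -, a1, -, -, a2⟩
    · exact (tr_of_shape (h1.mono k6 le_rfl) (by omega) hρ).mono' le_rfl (by omega)
    · exact tr_dug (a1.1.mono k6) a2 hρ
  have hG : Rgh I N₁ R' := by
    refine ⟨fun y s hs => ?_, fun f hf s hs => ?_, fun y => (htr y _ e1).mono' le_rfl m3⟩
    · rcases hch y with h1 | ⟨p, -, y₀, c, un, S₁, S₂, ν₁, ν₂, -, a1, a3, -, a2⟩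
      · exact hcs h1 le_rfl (hm _ m2) (by omega)
      · have h2 := hm (s + 1) (show N₂ ≤ N₁ by omega)
        have h3 := hm (s + 1) (show 1 ≤ N₁ by omega)
        exact (conn_tip a2 (by omega) (by omega) fun f f' =>
          ((hZ κ hκ.le k4 un _ _ _ _ a1.1).2.2 c a3.1).2 y₀ f f' s).mono' le_rfl h2
    · rcases hch f with h1 | ⟨p, -, y₀, c, un, S₁, S₂, ν₁, ν₂, -, a1, a3, -, a2⟩
      · have h3 := hm (s + 1) (show 4 ≤ N₁ by omega)
        obtain ⟨x, x1, x2⟩ := cork_shape (h1.mono k6 le_rfl) hf (s := s) (by omega)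
        exact ⟨x, by omega, x2⟩
      · have h2 := hm (s + 1) m1
        have h3 : y₀ ∉ DugU un S₁ S₂ c t := fun k => hf (by
          have := (a2 0 (by simp [zd])).2 (by rwa [add_zero])
          rwa [G.prj_zero, add_zero] at this)
        obtain ⟨x, x1, x2⟩ := ((hZ κ hκ.le k4 un _ _ _ _ a1.1).2.2 c a3.1).1 y₀ s h3
        rw [add_mul] at h2
        obtain ⟨x', x3, x4⟩ := cork_tip a2 (by omega) x1 x2
        exact ⟨x', by omega, x4⟩
  refine ⟨⟨by omega, esc_of hG hR' (by omega), fun f hf => ?_,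
    fun y => (htr y _ (by omega)).mono' le_rfl n5, fun b hb s hs hsr => ?_⟩, hG.mono e2,
    fun y ρ hρ hy => ?_⟩
  · obtain ⟨x, x1, x2⟩ := hR.cork f hf 4 (by omega)
    exact ⟨x, by omega, x2⟩
  · have p1 : N * (K + Ka) * s = N * (K * s) + N * (Ka * s) := by ring
    have p2 : 1 ≤ K * s := Nat.mul_pos hK hs
    have p3 : C * (K * s + 1) ≤ N * (K * s) :=
      (Nat.mul_le_mul_left C (show K * s + 1 ≤ 2 * (K * s) by omega)).trans
        (by rw [← mul_assoc]; exact hm _ (by omega))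
    have p4 : N₀ * (K * s + 1) ≤ 2 * N₀ * (K * s) :=
      (Nat.mul_le_mul_left N₀ (show K * s + 1 ≤ 2 * (K * s) by omega)).trans (le_of_eq (by ring))
    rcases hch b with h1 | ⟨p, -, y₀, c, un, S₁, S₂, ν₁, ν₂, -, a1, a3, -, a2⟩
    · exact ⟨s, le_rfl, by omega, Or.inl (hcs h1 le_rfl p3 (by omega))⟩
    by_cases q1 : N₀ * (K * s + 1) ≤ r₀
    · exact ⟨s, le_rfl, by omega,
        Or.inl ((hR.conn b _ q1).mono' le_rfl (p4.trans (hm _ (by omega))))⟩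
    have p5 : t ≤ K₁ * (2 * N₀ * (K * s)) := hr₀.trans (Nat.mul_le_mul_left _ (by omega))
    by_cases q2 : Nf * (N * (K * s) + 1) + 2 * t + N * (K * s) < zd y₀ 0
    · obtain ⟨S, ν, b1, b2, -, b3⟩ := hF κ hκ.le k1 un _ _ _ _ a1.1 y₀ (N * (K * s)) (by omega)
      exact ⟨s, le_rfl, by omega, Or.inl
        (hcs (far_shape a1.1 b1 b2 b3 a2 a3.1 (by omega) (by omega)) (by omega) p3 le_rfl)⟩
    have p6 : K₂ * (K * s) =
        Nf * (2 * (N * (K * s))) + 2 * (K₁ * (2 * N₀ * (K * s))) + N * (K * s) := by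
      rw [hK₂]
      ring
    have p7 : 1 ≤ N * (K * s) := Nat.mul_pos (by omega) p2
    have p8 : Nf * (N * (K * s) + 1) ≤ Nf * (2 * (N * (K * s))) :=
      Nat.mul_le_mul_left _ (by omega)
    have p9 : K * s ≤ N * (K * s) := Nat.le_mul_of_pos_left _ (by omega)
    cases un
    · obtain ⟨s', c1, c2, c3⟩ := hA κ hκ.le k3 t (by omega) _ _ _ _ c a1 a3.1 y₀ s
        (by rw [mul_assoc]; omega) (by rw [mul_assoc]; omega)
      have c4 : K * s' ≤ Na * (K * s') := Nat.le_mul_of_pos_left _ hNa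
      have c5 : N * (K * s') ≤ N * (Ka * s) := Nat.mul_le_mul_left _ (by omega)
      have c6 : Ka * s ≤ N * (Ka * s) := Nat.le_mul_of_pos_left _ (by omega)
      refine ⟨s', c1, by omega, c3.imp (fun k => ?_) fun k => ?_⟩
      · exact (conn_tip a2 (by omega) (by omega) k).mono' le_rfl (hm _ n3)
      · exact (Nat.mul_le_mul_left K (card_chart a2 (by omega))).trans k
    · have c4 := hm (K * s) n2
      exact ⟨s, le_rfl, by omega, Or.inl ((conn_tip a2 (by omega) (by omega)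
        (hO κ hκ.le k2 t (by omega) _ _ _ _ c a1.1 a3.1 y₀ (K * s) (by omega)
          (by omega))).mono' le_rfl c4)⟩
  · rcases hch y with h1 | ⟨p, hp, y₀, c, un, S₁, S₂, ν₁, ν₂, h1, a1, a3, -, a2⟩
    · exact h1.mono le_rfl (by omega)
    · have h2 := (hy p hp).trans h1
      have h3 : 1 ≤ r₀ := Nat.pos_of_ne_zero fun k => by
        rw [k] at hr₀
        omega
      have h4 : (Nf + 2 * K₁ + 1) * (ρ + r₀) =
          Nf * (ρ + r₀) + 2 * (K₁ * ρ) + 2 * (K₁ * r₀) + ρ + r₀ := by ring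
      have h5 : Nf * (ρ + 1) ≤ Nf * (ρ + r₀) := Nat.mul_le_mul_left _ (by omega)
      obtain ⟨S, ν, b1, b2, -, b3⟩ := hF κ hκ.le k1 un _ _ _ _ a1.1 y₀ ρ (by omega)
      exact far_shape a1.1 b1 b2 b3 a2 a3.1 (by omega) (by omega)

end Vale.Agent.P144Z
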